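import Mathlib.Data.ZMod.Basic
import Mathlib.Algebra.Field.ZMod
import Mathlib.LinearAlgebra.FiniteDimensional.Lemmas
import Mathlib.LinearAlgebra.BilinearMap
import Mathlib.Algebra.BigOperators.Ring.Finset
import Mathlib.Algebra.BigOperators.Fin
import Mathlib.SetTheory.Cardinal.Finite
import Mathlib.Tactic.LinearCombination
import Mathlib.Tactic.Linarith
import Mathlib.Tactic.Abel
import Mathlib.LinearAlgebra.Basis.Basic

/-!
# P263: symplectic bases and the Arf invariant of a quadratic form over `𝔽₂`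

* `exists_symp` : a nonsingular alternating form has a symplectic basis.
* `arf_iff` : for every symplectic basis, `∑ φ(aᵢ) φ(bᵢ) = 1` iff `φ` takes the value `1` on more
  than half of the vectors.
-/

set_option linter.unusedSectionVars false

open Finset

namespace Vale.Agent.P263B14

variable {V : Type*} [AddCommGroup V] [Module (ZMod 2) V]

theorem z2 (s : ZMod 2) : s = 0 ∨ s = 1 := by revert s; decide

theorem z2_add (s : ZMod 2) : s + s = 0 := by revert s; decide

theorem v_add (x : V) : x + x = 0 := by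
  rw [← two_smul (ZMod 2) x, show (2 : ZMod 2) = 0 from rfl, zero_smul]

/-- `a, b` is a symplectic basis for `B` -/
structure Symp (B : V → V → ZMod 2) {g : ℕ} (a b : Fin g → V) : Prop where
  span : Submodule.span (ZMod 2) (Set.range a ∪ Set.range b) = ⊤
  aa : ∀ i j, B (a i) (a j) = 0
  bb : ∀ i j, B (b i) (b j) = 0
  ab : ∀ i j, B (a i) (b j) = if i = j then 1 else 0

section Exists

variable (B : V →ₗ[ZMod 2] V →ₗ[ZMod 2] ZMod 2)

theorem symm_of_alt (halt : ∀ x, B x x = 0) (x y : V) : B x y = B y x := by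
  have h := halt (x + y)
  simp only [map_add, LinearMap.add_apply, halt, zero_add, add_zero] at h
  have h2 := z2_add (B x y)
  linear_combination h2 - h

theorem exists_symp_aux [Module.Finite (ZMod 2) V] (halt : ∀ x, B x x = 0) (n : ℕ) :
    ∀ W : Submodule (ZMod 2) V, Module.finrank (ZMod 2) W < n →
      (∀ x ∈ W, (∀ y ∈ W, B x y = 0) → x = 0) →
      ∃ (g : ℕ) (a b : Fin g → V), (∀ i, a i ∈ W) ∧ (∀ i, b i ∈ W) ∧
        W ≤ Submodule.span (ZMod 2) (Set.range a ∪ Set.range b) ∧
        (∀ i j, B (a i) (a j) = 0) ∧ (∀ i j, B (b i) (b j) = 0) ∧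
        ∀ i j, B (a i) (b j) = if i = j then 1 else 0 := by
  have hs := symm_of_alt B halt
  induction n with
  | zero => intro W h; omega
  | succ n ih =>
    intro W hW hnd
    by_cases h0 : ∀ x ∈ W, x = 0
    · refine ⟨0, Fin.elim0, Fin.elim0, fun i => i.elim0, fun i => i.elim0, fun x hx => ?_,
        fun i => i.elim0, fun i => i.elim0, fun i => i.elim0⟩
      rw [h0 x hx]
      exact Submodule.zero_mem _
    push Not at h0
    obtain ⟨u, huW, hu0⟩ := h0
    obtain ⟨v, hvW, huv⟩ : ∃ v ∈ W, B u v = 1 := by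
      by_contra hc
      push Not at hc
      exact hu0 (hnd u huW fun y hy => (z2 _).resolve_right (hc y hy))
    have hvu : B v u = 1 := (hs v u).trans huv
    let W' : Submodule (ZMod 2) V := W ⊓ (LinearMap.ker (B u) ⊓ LinearMap.ker (B v))
    have hmem : ∀ x, x ∈ W' ↔ x ∈ W ∧ B u x = 0 ∧ B v x = 0 := fun x => Iff.rfl
    have hpr : ∀ x ∈ W, x + B v x • u + B u x • v ∈ W' := fun x hx => by
      refine (hmem _).2 ⟨W.add_mem (W.add_mem hx (W.smul_mem _ huW)) (W.smul_mem _ hvW), ?_, ?_⟩
      · simp only [map_add, map_smul, smul_eq_mul, halt, huv, mul_zero, add_zero, mul_one, z2_add]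
      · simp only [map_add, map_smul, smul_eq_mul, halt, hvu, mul_zero, add_zero, mul_one, z2_add]
    have hlt : W' < W := lt_of_le_of_ne inf_le_left fun h => by
      have := ((hmem v).1 (h ▸ hvW)).2.1
      rw [huv] at this
      exact one_ne_zero this
    have hr := Submodule.finrank_lt_finrank_of_lt hlt
    obtain ⟨g, a, b, ha, hb, hsp, haa, hbb, hab⟩ := ih W' (by omega) fun x hx h => by
      obtain ⟨hxW, hux, hvx⟩ := (hmem x).1 hx
      refine hnd x hxW fun y hy => ?_
      have := h _ (hpr y hy)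
      simpa only [map_add, map_smul, smul_eq_mul, hs x u, hs x v, hux, hvx, mul_zero,
        add_zero] using this
    have ha' := fun i => (hmem _).1 (ha i)
    have hb' := fun i => (hmem _).1 (hb i)
    refine ⟨g + 1, Fin.cons u a, Fin.cons v b, fun i => ?_, fun i => ?_, fun x hx => ?_,
      fun i j => ?_, fun i j => ?_, fun i j => ?_⟩
    · exact Fin.cases huW (fun i => (ha' i).1) i
    · exact Fin.cases hvW (fun i => (hb' i).1) i
    · have h1 : x = (x + B v x • u + B u x • v) + B v x • u + B u x • v := by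
        rw [show x + B v x • u + B u x • v + B v x • u + B u x • v =
          x + (B v x • u + B v x • u) + (B u x • v + B u x • v) by abel, v_add, v_add, add_zero,
          add_zero]
      rw [h1]
      refine Submodule.add_mem _ (Submodule.add_mem _ (Submodule.span_mono ?_ (hsp (hpr x hx)))
        (Submodule.smul_mem _ _ (Submodule.subset_span (Or.inl ⟨0, rfl⟩))))
        (Submodule.smul_mem _ _ (Submodule.subset_span (Or.inr ⟨0, rfl⟩)))
      rintro _ (⟨i, rfl⟩ | ⟨i, rfl⟩)
      · exact Or.inl ⟨i.succ, rfl⟩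
      · exact Or.inr ⟨i.succ, rfl⟩
    · refine Fin.cases (Fin.cases (halt u) (fun j => (ha' j).2.1) j) (fun i => ?_) i
      exact Fin.cases ((hs _ _).trans (ha' i).2.1) (fun j => haa i j) j
    · refine Fin.cases (Fin.cases (halt v) (fun j => (hb' j).2.2) j) (fun i => ?_) i
      exact Fin.cases ((hs _ _).trans (hb' i).2.2) (fun j => hbb i j) j
    · refine Fin.cases (Fin.cases ?_ (fun j => ?_) j) (fun i => Fin.cases ?_ (fun j => ?_) j) i
      · exact huv.trans (if_pos rfl).symm
      · exact (hb' j).2.1.trans (if_neg (Fin.succ_ne_zero j).symm).symm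
      · exact ((hs _ _).trans (ha' i).2.2).trans (if_neg (Fin.succ_ne_zero i)).symm
      · exact (hab i j).trans (by simp only [Fin.succ_inj])

/-- A nonsingular alternating form over `𝔽₂` has a symplectic basis. -/
theorem exists_symp_lin [Module.Finite (ZMod 2) V] (halt : ∀ x, B x x = 0)
    (hnd : ∀ x, (∀ y, B x y = 0) → x = 0) :
    ∃ (g : ℕ) (a b : Fin g → V), Symp (fun x y => B x y) a b := by
  obtain ⟨g, a, b, -, -, hsp, haa, hbb, hab⟩ := exists_symp_aux B halt _ ⊤ (Nat.lt_succ_self _)
    fun x _ h => hnd x fun y => h y Submodule.mem_top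
  exact ⟨g, a, b, top_le_iff.1 hsp, haa, hbb, hab⟩

end Exists

section Quad

variable {φ : V → ZMod 2} {B : V → V → ZMod 2}

theorem symm_of_quad (hq : ∀ x y, φ (x + y) = φ x + φ y + B x y) (x y : V) : B x y = B y x := by
  have h1 := hq x y
  have h2 := hq y x
  rw [add_comm y x] at h2
  linear_combination h2 - h1

theorem zero_left (hl : ∀ x y z, B (x + y) z = B x z + B y z) (z : V) : B 0 z = 0 := by
  have h := hl 0 0 z
  rwa [add_zero, z2_add] at h

theorem smul_left (hl : ∀ x y z, B (x + y) z = B x z + B y z) (s : ZMod 2) (x z : V) :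
    B (s • x) z = s * B x z := by
  rcases z2 s with rfl | rfl
  · rw [zero_smul, zero_mul, zero_left hl]
  · rw [one_smul, one_mul]

/-- the bilinear map of a symmetric function which is additive in the first variable -/
def bil (hs : ∀ x y, B x y = B y x) (hl : ∀ x y z, B (x + y) z = B x z + B y z) :
    V →ₗ[ZMod 2] V →ₗ[ZMod 2] ZMod 2 :=
  LinearMap.mk₂ (ZMod 2) B hl (smul_left hl)
    (fun x y z => by rw [hs, hl, hs y, hs z]) fun s x y => by
      rw [hs, smul_left hl, hs y, smul_eq_mul]

theorem phi_zero (hq : ∀ x y, φ (x + y) = φ x + φ y + B x y)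
    (hl : ∀ x y z, B (x + y) z = B x z + B y z) : φ 0 = 0 := by
  have h := hq 0 0
  rwa [add_zero, z2_add, zero_left hl, add_zero] at h

theorem alt_of_quad (hq : ∀ x y, φ (x + y) = φ x + φ y + B x y)
    (hl : ∀ x y z, B (x + y) z = B x z + B y z) (x : V) : B x x = 0 := by
  have h := hq x x
  rw [v_add, phi_zero hq hl, z2_add, zero_add] at h
  exact h.symm

/-- The polar form of a nonsingular quadratic form over `𝔽₂` has a symplectic basis. -/
theorem exists_symp [Module.Finite (ZMod 2) V] (hq : ∀ x y, φ (x + y) = φ x + φ y + B x y)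
    (hl : ∀ x y z, B (x + y) z = B x z + B y z) (hnd : ∀ x, (∀ y, B x y = 0) → x = 0) :
    ∃ (g : ℕ) (a b : Fin g → V), Symp B a b :=
  exists_symp_lin (bil (symm_of_quad hq) hl) (alt_of_quad hq hl) hnd

theorem sum_left (hl : ∀ x y z, B (x + y) z = B x z + B y z) {ι : Type*} (s : Finset ι)
    (v : ι → V) (z : V) : B (∑ i ∈ s, v i) z = ∑ i ∈ s, B (v i) z := by
  classical
  induction s using Finset.induction_on with
  | empty => rw [sum_empty, sum_empty, zero_left hl]
  | insert i s hi ih => rw [sum_insert hi, sum_insert hi, hl, ih]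

theorem phi_sum (hq : ∀ x y, φ (x + y) = φ x + φ y + B x y)
    (hl : ∀ x y z, B (x + y) z = B x z + B y z) {ι : Type*} (v : ι → V)
    (ho : ∀ i j, i ≠ j → B (v i) (v j) = 0) (s : Finset ι) :
    φ (∑ i ∈ s, v i) = ∑ i ∈ s, φ (v i) := by
  classical
  induction s using Finset.induction_on with
  | empty => rw [sum_empty, sum_empty, phi_zero hq hl]
  | insert i s hi ih =>
    rw [sum_insert hi, sum_insert hi, hq, ih, symm_of_quad hq, sum_left hl,
      sum_eq_zero fun j hj => ho j i (fun h => hi (h ▸ hj)), add_zero]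

/-- the vector with the coordinates `p` -/
def comb {g : ℕ} (a b : Fin g → V) (p : Fin g → ZMod 2 × ZMod 2) : V :=
  ∑ i, ((p i).1 • a i + (p i).2 • b i)

variable {g : ℕ} {a b : Fin g → V}

theorem comb_b (hl : ∀ x y z, B (x + y) z = B x z + B y z) (h : Symp B a b)
    (p : Fin g → ZMod 2 × ZMod 2) (j : Fin g) : B (comb a b p) (b j) = (p j).1 := by
  simp only [comb, sum_left hl, hl, smul_left hl, h.ab, h.bb, mul_zero, add_zero, mul_ite, mul_one,
    sum_ite_eq', mem_univ, if_true]

theorem comb_a (hs : ∀ x y, B x y = B y x) (hl : ∀ x y z, B (x + y) z = B x z + B y z)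
    (h : Symp B a b) (p : Fin g → ZMod 2 × ZMod 2) (j : Fin g) :
    B (comb a b p) (a j) = (p j).2 := by
  have hba : ∀ i, B (b i) (a j) = if j = i then 1 else 0 := fun i => (hs _ _).trans (h.ab j i)
  simp only [comb, sum_left hl, hl, smul_left hl, h.aa, hba, mul_zero, zero_add, mul_ite, mul_one,
    sum_ite_eq, mem_univ, if_true]

theorem comb_bijective (hs : ∀ x y, B x y = B y x) (hl : ∀ x y z, B (x + y) z = B x z + B y z)
    (h : Symp B a b) : Function.Bijective (comb a b) := by
  refine ⟨fun p p' e => funext fun j => Prod.ext ?_ ?_, fun x => ?_⟩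
  · rw [← comb_b hl h, e, comb_b hl h]
  · rw [← comb_a hs hl h, e, comb_a hs hl h]
  · have hx : x ∈ Submodule.span (ZMod 2) (Set.range a ∪ Set.range b) := by
      rw [h.span]; exact Submodule.mem_top
    rw [Submodule.span_union] at hx
    obtain ⟨y, hy, z, hz, rfl⟩ := Submodule.mem_sup.1 hx
    obtain ⟨s, rfl⟩ := (Submodule.mem_span_range_iff_exists_fun _).1 hy
    obtain ⟨t, rfl⟩ := (Submodule.mem_span_range_iff_exists_fun _).1 hz
    exact ⟨fun i => (s i, t i), sum_add_distrib⟩

theorem phi_smul (hq : ∀ x y, φ (x + y) = φ x + φ y + B x y)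
    (hl : ∀ x y z, B (x + y) z = B x z + B y z) (s : ZMod 2) (x : V) : φ (s • x) = s * φ x := by
  rcases z2 s with rfl | rfl
  · rw [zero_smul, zero_mul, phi_zero hq hl]
  · rw [one_smul, one_mul]

theorem phi_comb (hq : ∀ x y, φ (x + y) = φ x + φ y + B x y)
    (hl : ∀ x y z, B (x + y) z = B x z + B y z) (h : Symp B a b) (p : Fin g → ZMod 2 × ZMod 2) :
    φ (comb a b p) = ∑ i, ((p i).1 * φ (a i) + (p i).2 * φ (b i) + (p i).1 * (p i).2) := by
  have hs := symm_of_quad hq
  have hr : ∀ x y z, B z (x + y) = B z x + B z y := fun x y z => by rw [hs, hl, hs x, hs y]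
  have hm : ∀ (s : ZMod 2) x z, B z (s • x) = s * B z x := fun s x z => by
    rw [hs, smul_left hl, hs x]
  rw [comb, phi_sum hq hl]
  · refine sum_congr rfl fun i _ => ?_
    rw [hq, phi_smul hq hl, phi_smul hq hl, smul_left hl, hm, h.ab, if_pos rfl, mul_one]
  · intro i j hij
    rw [hl, hr, hr, smul_left hl, smul_left hl, smul_left hl, smul_left hl, hm, hm, hm, hm, h.aa,
      h.bb, h.ab, hs (b i), h.ab, if_neg hij, if_neg hij.symm]
    simp only [mul_zero, add_zero]

/-- the sign of `s`, that is `1` or `-1` -/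
def sg (s : ZMod 2) : ℤ := if s = 0 then 1 else -1

theorem sg_add (s t : ZMod 2) : sg (s + t) = sg s * sg t := by revert s t; decide

theorem sg_sum {ι : Type*} (s : Finset ι) (f : ι → ZMod 2) :
    sg (∑ i ∈ s, f i) = ∏ i ∈ s, sg (f i) := by
  classical
  induction s using Finset.induction_on with
  | empty => rfl
  | insert i s hi ih => rw [sum_insert hi, prod_insert hi, sg_add, ih]

theorem sg_plane (s t : ZMod 2) :
    ∑ p : ZMod 2 × ZMod 2, sg (p.1 * s + p.2 * t + p.1 * p.2) = 2 * sg (s * t) := by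
  revert s t; decide

theorem sum_sg [Fintype V] (hq : ∀ x y, φ (x + y) = φ x + φ y + B x y)
    (hl : ∀ x y z, B (x + y) z = B x z + B y z) (h : Symp B a b) :
    ∑ x, sg (φ x) = 2 ^ g * sg (∑ i, φ (a i) * φ (b i)) := by
  classical
  rw [← (comb_bijective (symm_of_quad hq) hl h).sum_comp fun x => sg (φ x)]
  simp only [phi_comb hq hl h, sg_sum]
  have := prod_univ_sum (fun _ : Fin g => (univ : Finset (ZMod 2 × ZMod 2)))
    fun i p => sg (p.1 * φ (a i) + p.2 * φ (b i) + p.1 * p.2)
  rw [Fintype.piFinset_univ] at this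
  rw [← this]
  simp only [sg_plane, prod_mul_distrib, prod_const, card_univ, Fintype.card_fin]

theorem sum_sg_card [Fintype V] (φ : V → ZMod 2) :
    ∑ x, sg (φ x) = (Nat.card V : ℤ) - 2 * (Nat.card {x // φ x = 1} : ℤ) := by
  classical
  have h1 : ∀ s : ZMod 2, sg s = 1 - 2 * (if s = 1 then 1 else 0) := by decide
  simp only [h1, sum_sub_distrib, ← mul_sum, sum_boole, sum_const, card_univ, nsmul_eq_mul, mul_one,
    Nat.card_eq_fintype_card, Fintype.card_subtype]

theorem finite_of_symp (hs : ∀ x y, B x y = B y x) (hl : ∀ x y z, B (x + y) z = B x z + B y z)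
    (h : Symp B a b) : Finite V := Finite.of_surjective _ (comb_bijective hs hl h).2

/-- **The Arf invariant is the majority value**, for every symplectic basis. -/
theorem arf_iff (hq : ∀ x y, φ (x + y) = φ x + φ y + B x y)
    (hl : ∀ x y z, B (x + y) z = B x z + B y z) (h : Symp B a b) :
    ∑ i, φ (a i) * φ (b i) = 1 ↔ Nat.card V < 2 * Nat.card {x // φ x = 1} := by
  have := finite_of_symp (symm_of_quad hq) hl h
  have := Fintype.ofFinite V
  have h1 := (sum_sg_card φ).symm.trans (sum_sg hq hl h)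
  have h2 : (0 : ℤ) < 2 ^ g := by positivity
  rcases z2 (∑ i, φ (a i) * φ (b i)) with e | e
  · rw [e] at h1 ⊢
    rw [show sg 0 = 1 from rfl] at h1
    exact iff_of_false zero_ne_one (by omega)
  · rw [e] at h1 ⊢
    rw [show sg 1 = -1 from rfl] at h1
    exact iff_of_true rfl (by omega)

/-- the vectors of a symplectic basis are linearly independent -/
theorem Symp.linearIndependent (hs : ∀ x y, B x y = B y x)
    (hl : ∀ x y z, B (x + y) z = B x z + B y z) (h : Symp B a b) :
    LinearIndependent (ZMod 2) (Sum.elim a b) := by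
  rw [Fintype.linearIndependent_iff]
  intro c hc
  have h0 : comb a b (fun i => (c (Sum.inl i), c (Sum.inr i))) = 0 := by
    rw [← hc, Fintype.sum_sum_type, comb, sum_add_distrib]
    rfl
  rintro (i | i)
  · have := comb_b hl h (fun i => (c (Sum.inl i), c (Sum.inr i))) i
    rw [h0, zero_left hl] at this
    exact this.symm
  · have := comb_a hs hl h (fun i => (c (Sum.inl i), c (Sum.inr i))) i
    rw [h0, zero_left hl] at this
    exact this.symm

/-- a symplectic basis as a basis -/
theorem Symp.exists_basis (hs : ∀ x y, B x y = B y x)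
    (hl : ∀ x y z, B (x + y) z = B x z + B y z) (h : Symp B a b) :
    ∃ e : Module.Basis (Fin g ⊕ Fin g) (ZMod 2) V,
      (∀ i, e (Sum.inl i) = a i) ∧ ∀ i, e (Sum.inr i) = b i := by
  refine ⟨Module.Basis.mk (h.linearIndependent hs hl) ?_, fun i => ?_, fun i => ?_⟩
  · rw [Set.Sum.elim_range, h.span]
  · rw [Module.Basis.mk_apply]; rfl
  · rw [Module.Basis.mk_apply]; rfl

theorem span_of_basis (e : Module.Basis (Fin g ⊕ Fin g) (ZMod 2) V) :
    Submodule.span (ZMod 2) (Set.range (fun i => e (Sum.inl i)) ∪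
      Set.range fun i => e (Sum.inr i)) = ⊤ := by
  rw [← Set.Sum.elim_range, ← e.span_eq]
  congr 2
  funext i
  cases i <;> rfl

end Quad

end Vale.Agent.P263B14
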