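import Vale.Agent.P263B14.Alg
import Vale.Agent.P263B6.Rows

/-!
# P263, Arf invariant: the row `ALG`
-/

namespace Vale.Agent.P263B14

open Vale.Agent.P263A

variable {V : Type} [AddCommGroup V] [Module (ZMod 2) V] {B : V → V → ZMod 2} {φ : V → ZMod 2}

theorem symp_of_isSymplectic {r : ℕ} {e : Module.Basis (Fin r ⊕ Fin r) (ZMod 2) V}
    (h : IsSymplectic B e) : Symp B (fun i => e (Sum.inl i)) fun i => e (Sum.inr i) :=
  ⟨span_of_basis e, fun i j => (h i j).1, fun i j => (h i j).2.1, fun i j => (h i j).2.2⟩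

theorem alg : ALG := by
  intro V _ _ _ B φ hq hl hnd
  refine ⟨?_, fun r e he => arf_iff hq hl (symp_of_isSymplectic he)⟩
  obtain ⟨g, a, b, h⟩ := exists_symp hq hl hnd
  obtain ⟨e, ha, hb⟩ := h.exists_basis (symm_of_quad hq) hl
  refine ⟨g, e, fun i j => ?_⟩
  rw [ha, ha, hb, hb]
  exact ⟨h.aa i j, h.bb i j, h.ab i j⟩

/-- all symplectic bases give the same Arf invariant -/
theorem arf_eq (hq : ∀ x y, φ (x + y) = φ x + φ y + B x y)
    (hl : ∀ x y z, B (x + y) z = B x z + B y z) {r r' : ℕ}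
    {e : Module.Basis (Fin r ⊕ Fin r) (ZMod 2) V} {e' : Module.Basis (Fin r' ⊕ Fin r') (ZMod 2) V}
    (he : IsSymplectic B e) (he' : IsSymplectic B e') : arf φ e' = arf φ e := by
  have h : arf φ e' = 1 ↔ arf φ e = 1 :=
    (arf_iff hq hl (symp_of_isSymplectic he')).trans (arf_iff hq hl (symp_of_isSymplectic he)).symm
  rcases z2 (arf φ e') with h1 | h1 <;> rcases z2 (arf φ e) with h2 | h2
  · rw [h1, h2]
  · exact h.2 h2 ▸ h2.symm
  · exact (h.1 h1).symm ▸ h1
  · rw [h1, h2]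

/-- a nonsingular quadratic form on a finite space is an Arf form -/
theorem isArfForm [Finite V] (hq : ∀ x y, φ (x + y) = φ x + φ y + B x y)
    (hl : ∀ x y z, B (x + y) z = B x z + B y z) (hnd : ∀ x, (∀ y, B x y = 0) → x = 0) :
    IsArfForm B φ := by
  obtain ⟨r, e, he⟩ := (alg V B φ hq hl hnd).1
  exact ⟨hq, hnd, r, e, he, fun _ _ he' => arf_eq hq hl he he'⟩

end Vale.Agent.P263B14
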