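import Vale.Agent.P263B6.Rows

/-!
# P263, Arf invariant: the row `CUP` (the cup product is well defined)
-/

open CategoryTheory Simplicial

namespace Vale.Agent.P263B14

open Vale.Agent.P263A Vale.Agent.P263 Vale.Agent.P263.FR Vale.Agent.P263.E Vale.Agent.P263.G2
  Vale.Agent.P263.TJ

variable {X : TopCat.{0}} {n : ℕ}

/-- the linear form of a function on simplices -/
noncomputable def lin (c : (TopCat.toSSet.obj X) _⦋n⦌ → ZMod 2) :
    (Ch X).X n →ₗ[ZMod 2] ZMod 2 := (T0.ev (TopCat.toSSet.obj X) c).hom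

theorem lin_face {l : ℕ} (c : (TopCat.toSSet.obj X) _⦋l⦌ → ZMod 2)
    (σ : (TopCat.toSSet.obj X) _⦋n⦌) (j : ℕ) (h : j + l ≤ n) :
    lin c (face σ j l h) =
      c ((TopCat.toSSet.obj X).map (SimplexCategory.subinterval j l h).op σ) :=
  congrFun (T0.unev_ev (TopCat.toSSet.obj X) c) _

theorem π_pair (K : ChainComplex (ModuleCat.{0} (ZMod 2)) ℕ) {J : ModuleCat.{0} (ZMod 2)}
    (l : K.X n ⟶ J) (h : K.d (n + 1) n ≫ l = 0) :
    K.homologyπ n ≫ T0.pair K l h = K.iCycles n ≫ l := by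
  unfold T0.pair
  rw [HomologicalComplex.homology_π_ι_assoc, HomologicalComplex.p_descOpcycles]

theorem rep_lin (c : (TopCat.toSSet.obj X) _⦋n⦌ → ZMod 2)
    (hc : T0.cobd (TopCat.toSSet.obj X) c = 0) :
    Represents (lin c) (T0.evH (TopCat.toSSet.obj X) c hc).hom := by
  intro z
  exact ConcreteCategory.congr_hom (π_pair (Ch X) (T0.ev (TopCat.toSSet.obj X) c)
    ((T0.cobd_eq_zero_iff _ c).1 hc)) z

theorem rep_cl (u : Cc (sing X)) (hu : Cc.d u = 0) : Represents (lin (toS n u)) (FR.cl n u hu) :=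
  rep_lin _ _

theorem rep_unique {u : (Ch X).X n →ₗ[ZMod 2] ZMod 2} {x x' : Coh n X} (h : Represents u x)
    (h' : Represents u x') : x = x' := by
  refine LinearMap.ext fun a => ?_
  obtain ⟨z, rfl⟩ := (ModuleCat.epi_iff_surjective ((Ch X).homologyπ n)).1 inferInstance a
  exact (h z).trans (h' z).symm

theorem of_rep {u : (Ch X).X n →ₗ[ZMod 2] ZMod 2} {x : Coh n X} (h : Represents u x) :
    ∃ (U : Cc (sing X)) (hU : Cc.d U = 0), Cc.IsDeg n U ∧ FR.cl n U hU = x ∧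
      lin (toS n U) = u := by
  obtain ⟨c, hc⟩ : ∃ c, c = T0.unev (TopCat.toSSet.obj X) (ModuleCat.ofHom u) := ⟨_, rfl⟩
  have e : T0.ev (TopCat.toSSet.obj X) c = ModuleCat.ofHom u := by
    rw [hc]
    exact T0.ev_unev _ _
  have h0 : T0.cobd (TopCat.toSSet.obj X) c = 0 := by
    rw [T0.cobd_eq_zero_iff, e]
    ext b
    have h1 := h (((Ch X).toCycles (n + 1) n).hom b)
    have h2 := ConcreteCategory.congr_hom ((Ch X).toCycles_comp_homologyπ (n + 1) n) b
    have h3 := ConcreteCategory.congr_hom ((Ch X).toCycles_i (n + 1) n) b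
    change ((Ch X).homologyπ n).hom (((Ch X).toCycles (n + 1) n).hom b) = 0 at h2
    change ((Ch X).iCycles n).hom (((Ch X).toCycles (n + 1) n).hom b) =
      ((Ch X).d (n + 1) n).hom b at h3
    rw [h2, h3] at h1
    exact h1.symm.trans (map_zero x)
  have hd : Cc.d (ofS n c) = 0 := by
    apply toS_injective (isDeg_ofS n c).d (fun _ _ _ => rfl)
    rw [← cobd_toS, toS_ofS, h0]
    rfl
  have hl : lin (toS n (ofS n c)) = u := by
    rw [toS_ofS]
    exact congrArg ModuleCat.Hom.hom e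
  exact ⟨ofS n c, hd, isDeg_ofS n c, rep_unique (rep_cl _ hd) (hl ▸ h), hl⟩

theorem hm_cl {l : ℕ} (j : ℕ) (h : j + l ≤ n) {e : ℕ → ℕ} (he : Monotone e)
    (hj : ∀ x, e x = x + j) : G.hm (TJ.cl l n e) = SimplexCategory.subinterval j l h := by
  apply SimplexCategory.Hom.ext
  apply OrderHom.ext
  funext x
  apply Fin.ext
  have hx : x.1 < l + 1 := x.2
  refine (cl_val he x).trans ?_
  rw [hj]
  exact min_eq_left (by omega)

theorem toS_face {l : ℕ} (u : Cc (sing X)) (σ : (TopCat.toSSet.obj X) _⦋n⦌) (j : ℕ)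
    (h : j + l ≤ n) {e : ℕ → ℕ} (he : Monotone e) (hj : ∀ x, e x = x + j) :
    toS l u ((TopCat.toSSet.obj X).map (SimplexCategory.subinterval j l h).op σ) =
      u l ((sing X).map (TJ.cl l n e) ((ofSing X).app σ)) := by
  rw [← hm_cl j h he hj]
  rfl

theorem toS_top (u : Cc (sing X)) (σ : (TopCat.toSSet.obj X) _⦋n⦌) (h : 0 + n ≤ n) :
    toS n u ((TopCat.toSSet.obj X).map (SimplexCategory.subinterval 0 n h).op σ) = toS n u σ := by
  rw [toS_face u σ 0 h monotone_id fun _ => rfl, cl_id monotone_id fun _ _ => rfl, SS.map_id]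
  rfl

theorem toS_cup {p q : ℕ} (h : p + q = n) {u : Cc (sing X)} (hu : Cc.IsDeg p u) (v : Cc (sing X))
    (σ : (TopCat.toSSet.obj X) _⦋n⦌) :
    toS n (Cc.cup 1 u v) σ = lin (toS p u) (face σ 0 p (by omega)) *
      lin (toS q v) (face σ p q h.le) := by
  have hm : Monotone fun x : ℕ => x + p := fun _ _ h => Nat.add_le_add_right h p
  rw [lin_face, lin_face, toS_face u σ 0 _ monotone_id fun _ => rfl,
    toS_face v σ p _ hm fun _ => rfl]
  refine (cup_one_deg hu v (p := n) (by omega) ((ofSing X).app σ)).trans ?_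
  have e : ∀ k, k = q → v k ((sing X).map (TJ.cl k n fun x => x + p) ((ofSing X).app σ)) =
      v q ((sing X).map (TJ.cl q n fun x => x + p) ((ofSing X).app σ)) := by
    rintro _ rfl
    rfl
  rw [e (n - p) (by omega)]

theorem isCup_cl {p q : ℕ} (h : p + q = n) {u v : Cc (sing X)} (hu : Cc.IsDeg p u)
    (du : Cc.d u = 0) (dv : Cc.d v = 0) (duv : Cc.d (Cc.cup 1 u v) = 0) :
    IsCup h (FR.cl p u du) (FR.cl q v dv) (FR.cl n (Cc.cup 1 u v) duv) :=
  ⟨_, _, _, rep_cl u du, rep_cl v dv, rep_cl _ duv, fun σ => by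
    rw [lin_face, toS_top, toS_cup h hu]⟩

theorem eq_of_isCup {p q : ℕ} (h : p + q = n) {u v : Cc (sing X)} (hu : Cc.IsDeg p u)
    (hv : Cc.IsDeg q v) (du : Cc.d u = 0) (dv : Cc.d v = 0) (duv : Cc.d (Cc.cup 1 u v) = 0)
    {w : Coh n X} (hw : IsCup h (FR.cl p u du) (FR.cl q v dv) w) :
    w = FR.cl n (Cc.cup 1 u v) duv := by
  obtain ⟨u', v', t, h1, h2, h3, h4⟩ := hw
  obtain ⟨U, dU, hU, eU, rfl⟩ := of_rep h1
  obtain ⟨V, dV, hV, eV, rfl⟩ := of_rep h2
  obtain ⟨T, dT, hT, rfl, rfl⟩ := of_rep h3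
  have hUV : Cc.IsDeg n (Cc.cup 1 U V) := hU.cup hV (by omega)
  have hUv : Cc.IsDeg n (Cc.cup 1 U v) := hU.cup hv (by omega)
  have huv : Cc.IsDeg n (Cc.cup 1 u v) := hu.cup hv (by omega)
  have eT : T = Cc.cup 1 U V := toS_injective hT hUV (funext fun σ => by
    rw [toS_cup h hU, ← h4, lin_face, toS_top])
  obtain ⟨a, ha⟩ := (cl_eq_iff dU du hU hu).1 eU
  obtain ⟨b, hb⟩ := (cl_eq_iff dV dv hV hv).1 eV
  subst eT
  exact ((cl_eq_iff dT (d_cup1_zero dU dv) hUV hUv).2 ⟨_, cup1_coh_right dU hb⟩).trans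
    ((cl_eq_iff (d_cup1_zero dU dv) duv hUv huv).2 ⟨_, cup1_coh_left dv ha⟩)

theorem existsUnique_cup {p q : ℕ} (h : p + q = n) (x : Coh p X) (y : Coh q X) :
    ∃! w : Coh n X, IsCup h x y w := by
  obtain ⟨u, du, hu, rfl⟩ := exists_cl x
  obtain ⟨v, dv, hv, rfl⟩ := exists_cl y
  exact ⟨_, isCup_cl h hu du dv (d_cup1_zero du dv), fun _ hw => eq_of_isCup h hu hv du dv _ hw⟩

theorem isCup_cup {p q : ℕ} (h : p + q = n) (x : Coh p X) (y : Coh q X) :
    IsCup h x y (cup h x y) := Classical.epsilon_spec (existsUnique_cup h x y).exists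

theorem cup_row : CUP := fun _ _ _ _ h =>
  ⟨existsUnique_cup h, fun _ _ hu hv du dv duv => eq_of_isCup h hu hv du dv duv (isCup_cup h _ _)⟩

theorem cup_add_l {p q : ℕ} (h : p + q = n) (x x' : Coh p X) (y : Coh q X) :
    cup h (x + x') y = cup h x y + cup h x' y := by
  obtain ⟨u, du, hu, rfl⟩ := exists_cl x
  obtain ⟨u', du', hu', rfl⟩ := exists_cl x'
  obtain ⟨v, dv, hv, rfl⟩ := exists_cl y
  have hd : Cc.IsDeg p (u + u') := fun k hk s => by
    change u k s + u' k s = 0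
    rw [hu k hk, hu' k hk, add_zero]
  have d1 := d_cup1_zero du dv
  have d2 := d_cup1_zero du' dv
  rw [← cl_add p u u' du du' (d_add_zero du du'),
    (cup_row X p q n h).2 _ _ hd hv _ dv (d_cup1_zero (d_add_zero du du') dv),
    (cup_row X p q n h).2 _ _ hu hv du dv d1, (cup_row X p q n h).2 _ _ hu' hv du' dv d2,
    ← cl_add n _ _ d1 d2 (d_add_zero d1 d2)]
  exact cl_congr (cup_add_left _ _ _ _)

end Vale.Agent.P263B14
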