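import Vale.Agent.P263B15.Rows

/-!
# P263B: the row `NULLC` (maps into the whisker are null homotopic)
-/

open Topology Set OnePoint

namespace Vale.Agent.P263B14

open Vale.Agent.P263B15 Vale.Agent.P246.T Vale.Agent.P263.AD.Freu

variable {E K X : Type} [NormedAddCommGroup E] [NormedSpace ℝ E] [TopologicalSpace K]
  [TopologicalSpace X] {s : E →L[ℝ] ℝ}

/-- the point of the whisker with the first coordinate `w x` -/
noncomputable def wh (k₀ : K) (w : X → OnePoint E)
    (hw : ∀ x (e : E), w x = (e : OnePoint E) → 0 ≤ s e) (x : X) : Su s k₀ :=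
  ⟨(w x, Ext.cut {x | w x ≠ ∞} (fun _ => Ext.of k₀) x), by
    refine ⟨⟨fun h1 => Ext.cut_of_notMem (S := {x | w x ≠ ∞}) (κ := fun _ => Ext.of k₀)
      (not_not.2 h1), fun h1 => ?_⟩, fun e k h1 h2 => ⟨hw x e h1, Or.inr ?_⟩⟩
    · by_contra h2
      exact Ext.of_ne k₀
        ((Ext.cut_of_mem (S := {x | w x ≠ ∞}) (κ := fun _ => Ext.of k₀) h2).symm.trans h1)
    · have h3 : w x ≠ ∞ := fun h4 => OnePoint.coe_ne_infty e (h1.symm.trans h4)
      exact (Ext.of_inj
        ((Ext.cut_of_mem (S := {x | w x ≠ ∞}) (κ := fun _ => Ext.of k₀) h3).symm.trans h2)).symm⟩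

theorem wh_snd (k₀ : K) {w : X → OnePoint E} (hw : ∀ x (e : E), w x = (e : OnePoint E) → 0 ≤ s e)
    {x : X} (hx : w x ≠ ∞) : (wh k₀ w hw x).1.2 = Ext.of k₀ :=
  Ext.cut_of_mem (S := {x | w x ≠ ∞}) (κ := fun _ => Ext.of k₀) hx

theorem continuous_wh (k₀ : K) {w : X → OnePoint E}
    (hw : ∀ x (e : E), w x = (e : OnePoint E) → 0 ≤ s e) (hc : Continuous w) :
    Continuous (wh k₀ w hw) :=
  Su.continuous_iff.2 ⟨hc, Ext.continuous_cut (isOpen_compl_singleton.preimage hc)
    continuousOn_const⟩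

/-- a map into the whisker slides to the base point -/
theorem null_wh [FiniteDimensional ℝ E] (k₀ : K) (c : E) (hc : s c < 0) (g : C(X, Su s k₀))
    (hg : ∀ x, (g x).1.1 ≠ ∞ → (g x).1.2 = Ext.of k₀) (S : Set X)
    (hS : ∀ x ∈ S, g x = Su.inf s k₀) :
    g.HomotopicRel (ContinuousMap.const _ (Su.inf s k₀)) S := by
  have h0 : ∀ x (e : E), (g x).1.1 = (e : OnePoint E) → 0 ≤ s e := fun x e h =>
    ((g x).2.2 e k₀ h (hg x (h ▸ OnePoint.coe_ne_infty e))).1
  have hm : ∀ x, (g x).1.1 ∈ ({(c : OnePoint E)}ᶜ : Set (OnePoint E)) := fun x h =>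
    absurd (h0 x c h) (not_le.2 hc)
  let w : I × X → OnePoint E := fun q => (contr c).h (q.1, ⟨(g q.2).1.1, hm q.2⟩)
  have hwc : Continuous w := (contr c).h.continuous.comp (continuous_fst.prodMk
    ((Su.continuous_fst.comp (g.continuous.comp continuous_snd)).subtype_mk _))
  have hw : ∀ q (e : E), w q = (e : OnePoint E) → 0 ≤ s e := by
    rintro ⟨t, x⟩ e h
    have key : ∀ (y : OnePoint E) (hy : y ∈ ({(c : OnePoint E)}ᶜ : Set (OnePoint E))),
        (∀ v : E, y = (v : OnePoint E) → 0 ≤ s v) → (contr c).h (t, ⟨y, hy⟩) = (e : OnePoint E) →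
        0 ≤ s e := by
      intro y hy hv h
      induction y using OnePoint.rec with
      | infty => exact absurd h (OnePoint.infty_ne_coe e)
      | coe v =>
        rw [contr_apply] at h
        by_cases ht : 1 - (t : ℝ) = 0
        · rw [ht, dv_zero] at h
          exact absurd h (OnePoint.infty_ne_coe e)
        · rw [dv_of_ne ht] at h
          rw [← OnePoint.coe_injective h, _root_.map_smul, map_sub, _root_.map_smul, smul_eq_mul,
            smul_eq_mul]
          have h1 := hv v rfl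
          have h2 := mul_nonneg t.2.1 (neg_nonneg.2 hc.le)
          exact mul_nonneg (inv_nonneg.2 (sub_nonneg.2 t.2.2)) (by linarith)
    exact key _ (hm x) (h0 x) h
  refine ⟨⟨⟨⟨wh k₀ w hw, continuous_wh k₀ hw hwc⟩, fun x => ?_, fun x => ?_⟩, ?_⟩⟩
  · have e : w (0, x) = (g x).1.1 := (contr c).zero _
    exact Su.ext e fun h => (wh_snd k₀ hw h).trans (hg x (e ▸ h)).symm
  · exact Su.eq_inf ((contr c).one _)
  · intro t x hx
    have e : w (t, x) = ∞ := by
      have h1 : (⟨(g x).1.1, hm x⟩ : ({(c : OnePoint E)}ᶜ : Set (OnePoint E))) =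
          ⟨∞, OnePoint.infty_ne_coe c⟩ := Subtype.ext (congrArg (fun p => p.1.1) (hS x hx))
      exact (congrArg (fun y => (contr c).h (t, y)) h1).trans (contr_infty c t _)
    exact (Su.eq_inf e).trans (hS x hx).symm

theorem nullc : NULLC := by
  intro m n N K _ _ _ k₀ c g hc hg
  refine null_wh k₀ ((0, -1) : (Fin n → ℝ) × ℝ) (by norm_num) g (fun z hz => ?_) _ ?_
  · rw [hg] at hz ⊢
    generalize c z = y at hz ⊢
    induction y using OnePoint.rec with
    | infty => exact absurd rfl hz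
    | coe p => rfl
  · rintro _ rfl
    rw [hg, hc]
    rfl

end Vale.Agent.P263B14
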